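import Mathlib

open Real

namespace Vale.Agent.Lib.P047C

/-- Signs on a finset: counting the plus and minus signs. -/
lemma sign_count {α : Type*} [DecidableEq α] (S : Finset α) (σ : α → ℝ)
    (hσ : ∀ i ∈ S, σ i = 1 ∨ σ i = -1) (τ : ℝ) :
    ∃ a b : ℕ, a + b = S.card ∧ ∑ i ∈ S, σ i = (a : ℝ) - b ∧
      ∏ i ∈ S, (1 + τ * σ i) = (1 + τ) ^ a * (1 - τ) ^ b := by
  induction S using Finset.induction_on with
  | empty => exact ⟨0, 0, by simp, by simp, by simp⟩
  | insert i S hi ih =>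
    obtain ⟨a, b, h1, h2, h3⟩ := ih (fun j hj => hσ j (Finset.mem_insert_of_mem hj))
    rcases hσ i (Finset.mem_insert_self i S) with h | h
    · refine ⟨a + 1, b, ?_, ?_, ?_⟩
      · rw [Finset.card_insert_of_notMem hi]; omega
      · rw [Finset.sum_insert hi, h, h2]; push_cast; ring
      · rw [Finset.prod_insert hi, h, h3]; ring
    · refine ⟨a, b + 1, ?_, ?_, ?_⟩
      · rw [Finset.card_insert_of_notMem hi]; omega
      · rw [Finset.sum_insert hi, h, h2]; push_cast; ring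
      · rw [Finset.prod_insert hi, h, h3]; ring

/-- `(1 - 1/w)^(w-1) ≥ 1/e`. -/
lemma one_sub_pow_ge {w : ℕ} (hw : 1 ≤ w) :
    exp (-1) ≤ (1 - 1 / (w : ℝ)) ^ (w - 1) := by
  rcases Nat.lt_or_ge w 2 with h | h
  · have : w = 1 := by omega
    subst this
    simp only [Nat.sub_self, pow_zero]
    have := exp_le_one_iff.mpr (show (-1 : ℝ) ≤ 0 by norm_num)
    exact this
  · set m := w - 1 with hm
    have hm1 : 1 ≤ m := by omega
    have hw' : (w : ℝ) = m + 1 := by
      have : w = m + 1 := by omega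
      rw [this]; push_cast; ring
    have hmpos : (0 : ℝ) < m := by exact_mod_cast hm1
    have h1 : 1 - 1 / (w : ℝ) = (1 + 1 / (m : ℝ))⁻¹ := by
      rw [hw']; field_simp; ring
    have h2 : (1 + 1 / (m : ℝ)) ≤ exp (1 / m) := by
      have := add_one_le_exp (1 / (m : ℝ)); linarith
    have h3 : (1 + 1 / (m : ℝ)) ^ m ≤ exp 1 := by
      calc (1 + 1 / (m : ℝ)) ^ m ≤ (exp (1 / m)) ^ m := by
            apply pow_le_pow_left₀ (by positivity) h2
        _ = exp 1 := by
            rw [← exp_nat_mul]; congr 1; field_simp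
    rw [h1, inv_pow, exp_neg]
    exact inv_anti₀ (by positivity) h3

/-- The key scalar inequality of the tilting argument. -/
lemma key_scalar {a b w : ℕ} (hw : 1 ≤ w) (hab : a + b ≤ w) :
    (a : ℝ) - b ≤ (√(w : ℝ) + 1 / 2) * exp (-(1 / 2)) *
      ((1 + 1 / √(w : ℝ)) ^ a * (1 - 1 / √(w : ℝ)) ^ b) := by
  have hw1 : (1 : ℝ) ≤ w := by exact_mod_cast hw
  have hs1 : 1 ≤ √(w : ℝ) := by
    rw [show (1 : ℝ) = √1 by simp]
    exact Real.sqrt_le_sqrt hw1
  have hspos : 0 < √(w : ℝ) := by linarith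
  set τ := 1 / √(w : ℝ) with hτ
  have hτpos : 0 < τ := by positivity
  have hτ1 : τ ≤ 1 := by
    rw [hτ, div_le_one hspos]; exact hs1
  have hτsq : τ * τ = 1 / (w : ℝ) := by
    rw [hτ, div_mul_div_comm, Real.mul_self_sqrt (by linarith)]; simp
  rcases Nat.lt_or_ge b a with hlt | hle
  · obtain ⟨u, rfl⟩ : ∃ u, a = b + u := ⟨a - b, by omega⟩
    have hu : 1 ≤ u := by omega
    have h2b : 2 * b ≤ w - 1 := by omega
    -- the power of 1+τ
    have hlog : 2 * τ / (τ + 2) ≤ log (1 + τ) := Real.le_log_one_add_of_nonneg hτpos.le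
    have hlogpos : 0 < log (1 + τ) := lt_of_lt_of_le (by positivity) hlog
    have hinv : 1 / log (1 + τ) ≤ √(w : ℝ) + 1 / 2 := by
      have hp : 0 < 2 * τ / (τ + 2) := by positivity
      calc 1 / log (1 + τ) ≤ 1 / (2 * τ / (τ + 2)) :=
            one_div_le_one_div_of_le hp hlog
        _ = √(w : ℝ) + 1 / 2 := by
            rw [hτ]; field_simp; ring
    have hexp : (1 + τ) ^ u = exp ((u : ℝ) * log (1 + τ)) := by
      rw [exp_nat_mul, exp_log (by positivity)]
    have hy : (u : ℝ) * log (1 + τ) * exp 1 ≤ (1 + τ) ^ u := by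
      have := add_one_le_exp ((u : ℝ) * log (1 + τ) - 1)
      have h' : (u : ℝ) * log (1 + τ) ≤ exp ((u : ℝ) * log (1 + τ) - 1) := by linarith
      rw [hexp]
      calc (u : ℝ) * log (1 + τ) * exp 1
          ≤ exp ((u : ℝ) * log (1 + τ) - 1) * exp 1 := by
            apply mul_le_mul_of_nonneg_right h' (exp_pos 1).le
        _ = exp ((u : ℝ) * log (1 + τ)) := by
            rw [← exp_add]; congr 1; ring
    have hu1 : (u : ℝ) ≤ (√(w : ℝ) + 1 / 2) * exp (-1) * (1 + τ) ^ u := by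
      have hexp1 : exp (-1) * exp 1 = 1 := by rw [← exp_add]; simp
      have hthis : (1 / log (1 + τ)) * ((u : ℝ) * log (1 + τ) * exp 1) * exp (-1) = u := by
        calc _ = (u : ℝ) * (log (1 + τ) / log (1 + τ)) * (exp (-1) * exp 1) := by ring
          _ = u := by rw [div_self hlogpos.ne', hexp1]; ring
      have h0 : 0 ≤ (u : ℝ) * log (1 + τ) * exp 1 := by positivity
      calc (u : ℝ) = (1 / log (1 + τ)) * ((u : ℝ) * log (1 + τ) * exp 1) * exp (-1) := hthis.symm
        _ ≤ (√(w : ℝ) + 1 / 2) * ((1 + τ) ^ u) * exp (-1) := by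
            apply mul_le_mul_of_nonneg_right _ (exp_pos _).le
            exact mul_le_mul hinv hy h0 (by positivity)
        _ = _ := by ring
    -- the power of 1-τ²
    have h1w : 0 ≤ 1 - 1 / (w : ℝ) := by
      rw [sub_nonneg, div_le_one (by linarith)]; exact hw1
    have h1w' : 1 - 1 / (w : ℝ) ≤ 1 := by
      have : 0 ≤ 1 / (w : ℝ) := by positivity
      linarith
    have hsq : exp (-(1 / 2)) ^ 2 ≤ ((1 - 1 / (w : ℝ)) ^ b) ^ 2 := by
      calc exp (-(1 / 2)) ^ 2 = exp (-1) := by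
            rw [← exp_nat_mul]; norm_num
        _ ≤ (1 - 1 / (w : ℝ)) ^ (w - 1) := one_sub_pow_ge hw
        _ ≤ (1 - 1 / (w : ℝ)) ^ (2 * b) := pow_le_pow_of_le_one h1w h1w' h2b
        _ = ((1 - 1 / (w : ℝ)) ^ b) ^ 2 := by rw [pow_mul, pow_right_comm]
    have hb : exp (-(1 / 2)) ≤ (1 - 1 / (w : ℝ)) ^ b :=
      (pow_le_pow_iff_left₀ (exp_pos _).le (pow_nonneg h1w b) (by norm_num)).mp hsq
    have hprod : (1 + τ) ^ (b + u) * (1 - τ) ^ b = (1 + τ) ^ u * (1 - 1 / (w : ℝ)) ^ b := by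
      rw [← hτsq, pow_add, show 1 - τ * τ = (1 + τ) * (1 - τ) by ring, mul_pow]
      ring
    have hh : exp (-1) = exp (-(1 / 2)) * exp (-(1 / 2)) := by
      rw [← exp_add]; norm_num
    rw [hprod]
    push_cast
    have hS : (0 : ℝ) < √(w : ℝ) + 1 / 2 := by linarith
    calc (b : ℝ) + u - b = u := by ring
      _ ≤ (√(w : ℝ) + 1 / 2) * exp (-1) * (1 + τ) ^ u := hu1
      _ = (√(w : ℝ) + 1 / 2) * exp (-(1 / 2)) * ((1 + τ) ^ u * exp (-(1 / 2))) := by
          rw [hh]; ring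
      _ ≤ _ := by
          apply mul_le_mul_of_nonneg_left _ (by positivity)
          exact mul_le_mul_of_nonneg_left hb (by positivity)
  · have h1 : (a : ℝ) - b ≤ 0 := by
      have : (a : ℝ) ≤ b := by exact_mod_cast hle
      linarith
    have h2 : 0 ≤ (√(w : ℝ) + 1 / 2) * exp (-(1 / 2)) * ((1 + τ) ^ a * (1 - τ) ^ b) := by
      have : 0 ≤ 1 - τ := by linarith
      positivity
    linarith

end Vale.Agent.Lib.P047C
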