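import Vale.Agent.Lib.P047C.Cube
import Vale.Agent.Lib.P047C.Scalar

open Finset Real Vale.Agent.Lib.P047

namespace Vale.Agent.Lib.P047C

variable {n : ℕ}

lemma chi_singleton (i : Fin n) (x : Fin n → Bool) : chi {i} x = sgn (x i) := by
  simp [chi]

lemma sum_cube_sgn {P N : Finset (Fin n)} (h : Disjoint P N) (k : Fin n) :
    ∑ x : Fin n → Bool, cube P N x * sgn (x k) =
      2 ^ n * (1 / 2) ^ (P.card + N.card) * lit P N k := by
  have := sum_cube_chi h {k}
  simpa [chi_singleton] using this

lemma sum_lit {P N : Finset (Fin n)} (h : Disjoint P N) (ε : Fin n → ℝ) :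
    ∑ i, ε i * lit P N i = ∑ i ∈ P, ε i - ∑ i ∈ N, ε i := by
  have h1 : ∀ i, ε i * lit P N i = (if i ∈ P then ε i else 0) - (if i ∈ N then ε i else 0) := by
    intro i
    unfold lit
    by_cases hP : i ∈ P
    · have hN : i ∉ N := fun hn => (Finset.disjoint_left.mp h hP) hn
      simp [hP, hN]
    · by_cases hN : i ∈ N <;> simp [hP, hN]
  rw [Finset.sum_congr rfl (fun i _ => h1 i), Finset.sum_sub_distrib, Finset.sum_ite_mem,
    Finset.sum_ite_mem]
  simp

lemma sum_cube_T {P N : Finset (Fin n)} (h : Disjoint P N) (ε : Fin n → ℝ) :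
    ∑ x : Fin n → Bool, cube P N x * ∑ i, ε i * sgn (x i) =
      2 ^ n * (1 / 2) ^ (P.card + N.card) * (∑ i ∈ P, ε i - ∑ i ∈ N, ε i) := by
  calc ∑ x : Fin n → Bool, cube P N x * ∑ i, ε i * sgn (x i)
      = ∑ i, ε i * ∑ x : Fin n → Bool, cube P N x * sgn (x i) := by
        simp only [Finset.mul_sum]
        rw [Finset.sum_comm]
        apply Finset.sum_congr rfl
        intro i _
        apply Finset.sum_congr rfl
        intro x _
        ring
    _ = ∑ i, 2 ^ n * (1 / 2) ^ (P.card + N.card) * (ε i * lit P N i) := by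
        apply Finset.sum_congr rfl
        intro i _
        rw [sum_cube_sgn h]
        ring
    _ = _ := by
        rw [← Finset.mul_sum, sum_lit h]

lemma cube_empty (x : Fin n → Bool) : cube (∅ : Finset (Fin n)) ∅ x = 1 := by
  simp [cube]

lemma sum_tilt (u : Fin n → ℝ) :
    ∑ x : Fin n → Bool, ∏ i, (1 + u i * sgn (x i)) = 2 ^ n := by
  have := sum_cube_tilt (P := (∅ : Finset (Fin n))) (N := ∅) (Finset.disjoint_empty_left _) u
  simpa [cube_empty] using this

lemma sum_sgn (k : Fin n) : ∑ x : Fin n → Bool, sgn (x k) = 0 := by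
  have := sum_cube_sgn (P := (∅ : Finset (Fin n))) (N := ∅) (Finset.disjoint_empty_left _) k
  simpa [cube_empty, lit] using this

/-- **Conical bound.**  If `(1 + f) / 2` is a nonnegative combination of indicators of subcubes of
codimension at most `w` and `f ≤ 1` (for instance, `f` is Boolean and its set `f = 1` is a disjoint
union of such subcubes), then `∑ |f̂(i)| ≤ (2 √w + 1) / √e`. -/
theorem conical_bound {ι : Type*} {w : ℕ} (hw : 1 ≤ w) {f : (Fin n → Bool) → ℝ}
    (hf : ∀ x, f x ≤ 1) (s : Finset ι) (P N : ι → Finset (Fin n)) (α : ι → ℝ)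
    (hα : ∀ j ∈ s, 0 ≤ α j) (hd : ∀ j ∈ s, Disjoint (P j) (N j))
    (hc : ∀ j ∈ s, (P j).card + (N j).card ≤ w)
    (hrep : ∀ x, (1 + f x) / 2 = ∑ j ∈ s, α j * cube (P j) (N j) x) :
    ∑ i, |fourier f {i}| ≤ (2 * √(w : ℝ) + 1) * exp (-(1 / 2)) := by
  classical
  have hw1 : (1 : ℝ) ≤ w := by exact_mod_cast hw
  have hs1 : 1 ≤ √(w : ℝ) := by
    rw [show (1 : ℝ) = √1 by simp]
    exact Real.sqrt_le_sqrt hw1
  have hspos : 0 < √(w : ℝ) := by linarith
  set τ : ℝ := 1 / √(w : ℝ) with hτ
  have hτpos : 0 < τ := by positivity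
  have hτ1 : τ ≤ 1 := by
    rw [hτ, div_le_one hspos]; exact hs1
  set ε : Fin n → ℝ := fun i => if 0 ≤ fourier f {i} then 1 else -1 with hεdef
  have hε : ∀ i, ε i = 1 ∨ ε i = -1 := by
    intro i
    by_cases h : 0 ≤ fourier f {i}
    · left; simp [hεdef, h]
    · right; simp [hεdef, h]
  have habs : ∀ i, |fourier f {i}| = ε i * fourier f {i} := by
    intro i
    by_cases h : 0 ≤ fourier f {i}
    · simp [hεdef, h, abs_of_nonneg h]
    · simp [hεdef, h, abs_of_neg (not_le.mp h)]
  set T : (Fin n → Bool) → ℝ := fun x => ∑ i, ε i * sgn (x i) with hT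
  set g : (Fin n → Bool) → ℝ := fun x => (1 + f x) / 2 with hg
  have h2n : (0 : ℝ) < 2 ^ n := by positivity
  have hLT : ∑ i, |fourier f {i}| = (∑ x, f x * T x) / 2 ^ n := by
    rw [Finset.sum_congr rfl (fun i _ => habs i)]
    unfold P047.fourier
    simp only [chi_singleton]
    have hthis : (∑ x, f x * T x) = ∑ i, ε i * ∑ x : Fin n → Bool, f x * sgn (x i) := by
      simp only [hT, Finset.mul_sum]
      rw [Finset.sum_comm]
      apply Finset.sum_congr rfl
      intro i _
      apply Finset.sum_congr rfl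
      intro x _
      ring
    rw [hthis, Finset.sum_div]
    apply Finset.sum_congr rfl
    intro i _
    rw [mul_div_assoc]
  have hT0 : ∑ x, T x = 0 := by
    simp only [hT]
    rw [Finset.sum_comm]
    apply Finset.sum_eq_zero
    intro i _
    rw [← Finset.mul_sum, sum_sgn, mul_zero]
  have hfg : ∑ x, f x * T x = 2 * ∑ x, g x * T x := by
    have : ∀ x, f x * T x = 2 * (g x * T x) - T x := by
      intro x
      simp only [hg]
      ring
    rw [Finset.sum_congr rfl (fun x _ => this x), Finset.sum_sub_distrib, hT0, sub_zero,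
      Finset.mul_sum]
  -- the tilted weight
  set W : (Fin n → Bool) → ℝ := fun x => ∏ i, (1 + (τ * ε i) * sgn (x i)) with hW
  have hW0 : ∀ x, 0 ≤ W x := by
    intro x
    apply Finset.prod_nonneg
    intro i _
    have h1 : sgn (x i) = 1 ∨ sgn (x i) = -1 := by
      unfold sgn
      by_cases hx : x i = true <;> simp [hx]
    rcases hε i with h | h <;> rcases h1 with h' | h' <;> rw [h, h'] <;> linarith
  have hWsum : ∑ x, W x = 2 ^ n := sum_tilt _
  have hg01 : ∀ x, g x ≤ 1 := by
    intro x
    simp only [hg]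
    linarith [hf x]
  have hgW : ∑ x, g x * W x ≤ 2 ^ n := by
    rw [← hWsum]
    apply Finset.sum_le_sum
    intro x _
    have := mul_le_mul_of_nonneg_right (hg01 x) (hW0 x)
    linarith
  -- expansion over the cubes
  have hgT : ∑ x, g x * T x = ∑ j ∈ s, α j * (2 ^ n * (1 / 2) ^ ((P j).card + (N j).card) *
      (∑ i ∈ P j, ε i - ∑ i ∈ N j, ε i)) := by
    calc ∑ x, g x * T x = ∑ x, ∑ j ∈ s, α j * (cube (P j) (N j) x * T x) := by
          apply Finset.sum_congr rfl
          intro x _
          simp only [hg]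
          rw [hrep x, Finset.sum_mul]
          apply Finset.sum_congr rfl
          intro j _
          ring
      _ = ∑ j ∈ s, α j * ∑ x, cube (P j) (N j) x * T x := by
          rw [Finset.sum_comm]
          apply Finset.sum_congr rfl
          intro j _
          rw [Finset.mul_sum]
      _ = _ := by
          apply Finset.sum_congr rfl
          intro j hj
          rw [show (∑ x, cube (P j) (N j) x * T x) =
              ∑ x : Fin n → Bool, cube (P j) (N j) x * ∑ i, ε i * sgn (x i) from rfl,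
            sum_cube_T (hd j hj)]
  have hgW' : ∑ x, g x * W x = ∑ j ∈ s, α j * (2 ^ n * (1 / 2) ^ ((P j).card + (N j).card) *
      ((∏ i ∈ P j, (1 + τ * ε i)) * ∏ i ∈ N j, (1 - τ * ε i))) := by
    calc ∑ x, g x * W x = ∑ x, ∑ j ∈ s, α j * (cube (P j) (N j) x * W x) := by
          apply Finset.sum_congr rfl
          intro x _
          simp only [hg]
          rw [hrep x, Finset.sum_mul]
          apply Finset.sum_congr rfl
          intro j _
          ring
      _ = ∑ j ∈ s, α j * ∑ x, cube (P j) (N j) x * W x := by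
          rw [Finset.sum_comm]
          apply Finset.sum_congr rfl
          intro j _
          rw [Finset.mul_sum]
      _ = _ := by
          apply Finset.sum_congr rfl
          intro j hj
          rw [show (∑ x, cube (P j) (N j) x * W x) =
              ∑ x : Fin n → Bool, cube (P j) (N j) x * ∏ i, (1 + (τ * ε i) * sgn (x i)) from rfl,
            sum_cube_tilt (hd j hj)]
  set K : ℝ := (√(w : ℝ) + 1 / 2) * exp (-(1 / 2)) with hK
  have hKpos : 0 < K := by positivity
  have hkey : ∀ j ∈ s, (∑ i ∈ P j, ε i - ∑ i ∈ N j, ε i) ≤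
      K * ((∏ i ∈ P j, (1 + τ * ε i)) * ∏ i ∈ N j, (1 - τ * ε i)) := by
    intro j hj
    obtain ⟨a₁, b₁, h1, h2, h3⟩ := sign_count (P j) ε (fun i _ => hε i) τ
    obtain ⟨a₂, b₂, h4, h5, h6⟩ := sign_count (N j) (fun i => -ε i)
      (fun i _ => by
        rcases hε i with h | h
        · right; simp [h]
        · left; simp [h]) τ
    have hsum5 : ∑ i ∈ N j, ε i = -((a₂ : ℝ) - b₂) := by
      rw [← h5, Finset.sum_neg_distrib, neg_neg]
    have hprod6 : ∏ i ∈ N j, (1 - τ * ε i) = (1 + τ) ^ a₂ * (1 - τ) ^ b₂ := by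
      rw [← h6]
      apply Finset.prod_congr rfl
      intro i _
      ring
    have hab : (a₁ + a₂) + (b₁ + b₂) ≤ w := by
      have := hc j hj
      omega
    have := key_scalar hw hab
    rw [h2, hsum5, h3, hprod6]
    push_cast at this
    calc (a₁ : ℝ) - b₁ - -((a₂ : ℝ) - b₂) = (a₁ : ℝ) + a₂ - (b₁ + b₂) := by ring
      _ ≤ _ := this
      _ = _ := by
          rw [hK, ← hτ]
          ring
  have hmain : ∑ x, g x * T x ≤ K * 2 ^ n := by
    rw [hgT]
    calc _ ≤ ∑ j ∈ s, α j * (2 ^ n * (1 / 2) ^ ((P j).card + (N j).card) *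
          (K * ((∏ i ∈ P j, (1 + τ * ε i)) * ∏ i ∈ N j, (1 - τ * ε i)))) := by
          apply Finset.sum_le_sum
          intro j hj
          apply mul_le_mul_of_nonneg_left _ (hα j hj)
          apply mul_le_mul_of_nonneg_left (hkey j hj) (by positivity)
      _ = K * ∑ x, g x * W x := by
          rw [hgW', Finset.mul_sum]
          apply Finset.sum_congr rfl
          intro j _
          ring
      _ ≤ K * 2 ^ n := mul_le_mul_of_nonneg_left hgW hKpos.le
  rw [hLT, hfg]
  rw [div_le_iff₀ h2n]
  have : (2 * √(w : ℝ) + 1) * exp (-(1 / 2)) = 2 * K := by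
    rw [hK]; ring
  rw [this]
  linarith

end Vale.Agent.Lib.P047C
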