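import Vale.Agent.Lib.P047.Defs

open Finset Vale.Agent.Lib.P047

namespace Vale.Agent.Lib.P047C

variable {n : ℕ}

/-- The indicator of the subcube `{x : x_i = 1 for i ∈ P, x_i = -1 for i ∈ N}`. -/
noncomputable def cube (P N : Finset (Fin n)) (x : Fin n → Bool) : ℝ :=
  if (∀ i ∈ P, x i = true) ∧ (∀ i ∈ N, x i = false) then 1 else 0

/-- One coordinate factor of `cube`. -/
noncomputable def fac (P N : Finset (Fin n)) (i : Fin n) (b : Bool) : ℝ :=
  if i ∈ P then (if b then 1 else 0) else if i ∈ N then (if b then 0 else 1) else 1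

lemma cube_eq_prod {P N : Finset (Fin n)} (h : Disjoint P N) (x : Fin n → Bool) :
    cube P N x = ∏ i, fac P N i (x i) := by
  unfold cube
  split_ifs with hc
  · symm
    apply Finset.prod_eq_one
    intro i _
    unfold fac
    by_cases hP : i ∈ P
    · simp [hP, hc.1 i hP]
    · by_cases hN : i ∈ N
      · simp [hP, hN, hc.2 i hN]
      · simp [hP, hN]
  · symm
    rw [not_and_or] at hc
    rcases hc with hc | hc
    · push Not at hc
      obtain ⟨i, hi, hx⟩ := hc
      apply Finset.prod_eq_zero (mem_univ i)
      simp [fac, hi, hx]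
    · push Not at hc
      obtain ⟨i, hi, hx⟩ := hc
      have hP : i ∉ P := fun hp => (Finset.disjoint_left.mp h hp) hi
      apply Finset.prod_eq_zero (mem_univ i)
      simp [fac, hi, hP, hx]

/-- The product formula for sums over the cube. -/
lemma sum_prod (w : Fin n → Bool → ℝ) :
    ∑ x : Fin n → Bool, ∏ i, w i (x i) = ∏ i, (w i true + w i false) := by
  have := (Finset.prod_univ_sum (fun _ : Fin n => (Finset.univ : Finset Bool)) w).symm
  rw [Fintype.piFinset_univ] at this
  rw [this]
  apply Finset.prod_congr rfl
  intro i _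
  simp

lemma sum_cube_mul_prod {P N : Finset (Fin n)} (h : Disjoint P N) (w : Fin n → Bool → ℝ) :
    ∑ x : Fin n → Bool, cube P N x * ∏ i, w i (x i) =
      ∏ i, (fac P N i true * w i true + fac P N i false * w i false) := by
  rw [← sum_prod (fun i b => fac P N i b * w i b)]
  apply Finset.sum_congr rfl
  intro x _
  rw [cube_eq_prod h, Finset.prod_mul_distrib]

/-- The sign coming from the fixed literal at `i`. -/
noncomputable def lit (P N : Finset (Fin n)) (i : Fin n) : ℝ :=
  if i ∈ P then 1 else if i ∈ N then -1 else 0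

/-- The free or fixed coordinate weight. -/
noncomputable def fre (P N : Finset (Fin n)) (i : Fin n) : ℝ :=
  if i ∈ P then 1 else if i ∈ N then 1 else 2

lemma prod_fre {P N : Finset (Fin n)} (h : Disjoint P N) :
    ∏ i, fre P N i = 2 ^ n * (1 / 2) ^ (P.card + N.card) := by
  have h1 : ∀ i, fre P N i = 2 * ((if i ∈ P then (1 / 2 : ℝ) else 1) *
      (if i ∈ N then (1 / 2 : ℝ) else 1)) := by
    intro i
    unfold fre
    by_cases hP : i ∈ P
    · have hN : i ∉ N := fun hn => (Finset.disjoint_left.mp h hP) hn
      simp [hP, hN]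
    · by_cases hN : i ∈ N
      · simp [hP, hN]
      · simp [hP, hN]
  rw [Finset.prod_congr rfl (fun i _ => h1 i), Finset.prod_mul_distrib, Finset.prod_mul_distrib,
    Finset.prod_ite_mem, Finset.prod_ite_mem]
  simp [Finset.prod_const, pow_add]

/-- The Fourier coefficients of a subcube. -/
lemma sum_cube_chi {P N : Finset (Fin n)} (h : Disjoint P N) (S : Finset (Fin n)) :
    ∑ x : Fin n → Bool, cube P N x * chi S x =
      2 ^ n * (1 / 2) ^ (P.card + N.card) * ∏ i ∈ S, lit P N i := by
  have h1 : ∀ x : Fin n → Bool, chi S x = ∏ i, (if i ∈ S then sgn (x i) else 1) := by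
    intro x
    unfold chi
    rw [Finset.prod_ite_mem]
    simp
  have h2 := sum_cube_mul_prod h (fun i b => if i ∈ S then sgn b else 1)
  calc ∑ x : Fin n → Bool, cube P N x * chi S x
      = ∏ i, (fac P N i true * (if i ∈ S then sgn true else 1) +
          fac P N i false * (if i ∈ S then sgn false else 1)) := by
        rw [← h2]
        apply Finset.sum_congr rfl
        intro x _
        rw [h1]
    _ = ∏ i, (fre P N i * (if i ∈ S then lit P N i else 1)) := by
        apply Finset.prod_congr rfl
        intro i _
        unfold fac fre lit sgn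
        by_cases hS : i ∈ S <;> by_cases hP : i ∈ P <;> by_cases hN : i ∈ N <;>
          simp [hS, hP, hN] <;> norm_num
    _ = 2 ^ n * (1 / 2) ^ (P.card + N.card) * ∏ i ∈ S, lit P N i := by
        rw [Finset.prod_mul_distrib, prod_fre h, Finset.prod_ite_mem]
        simp

/-- The tilted weight of a subcube. -/
lemma sum_cube_tilt {P N : Finset (Fin n)} (h : Disjoint P N) (u : Fin n → ℝ) :
    ∑ x : Fin n → Bool, cube P N x * ∏ i, (1 + u i * sgn (x i)) =
      2 ^ n * (1 / 2) ^ (P.card + N.card) * ((∏ i ∈ P, (1 + u i)) * ∏ i ∈ N, (1 - u i)) := by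
  have h2 := sum_cube_mul_prod h (fun i b => 1 + u i * sgn b)
  rw [h2]
  calc ∏ i, (fac P N i true * (1 + u i * sgn true) + fac P N i false * (1 + u i * sgn false))
      = ∏ i, (fre P N i * ((if i ∈ P then 1 + u i else 1) *
          (if i ∈ N then 1 - u i else 1))) := by
        apply Finset.prod_congr rfl
        intro i _
        unfold fac fre sgn
        by_cases hP : i ∈ P
        · have hN : i ∉ N := fun hn => (Finset.disjoint_left.mp h hP) hn
          simp [hP, hN]
        · by_cases hN : i ∈ N
          · simp [hP, hN]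
            ring
          · simp [hP, hN]
            ring
    _ = _ := by
        rw [Finset.prod_mul_distrib, prod_fre h, Finset.prod_mul_distrib, Finset.prod_ite_mem,
          Finset.prod_ite_mem]
        simp

end Vale.Agent.Lib.P047C
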