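import Vale.Agent.Lib.P047C.Conical

open Finset Real Vale.Agent.Lib.P047

namespace Vale.Agent.Lib.P047C

variable {n : ℕ}

lemma sum_cube_one {P N : Finset (Fin n)} (h : Disjoint P N) :
    ∑ x : Fin n → Bool, cube P N x = 2 ^ n * (1 / 2) ^ (P.card + N.card) := by
  have := sum_cube_chi h ∅
  simpa [chi] using this

lemma sgn_sq (b : Bool) : sgn b * sgn b = 1 := by
  unfold sgn
  by_cases hb : b = true <;> simp [hb]

lemma sum_cube_pair {P N : Finset (Fin n)} (h : Disjoint P N) (k l : Fin n) :
    ∑ x : Fin n → Bool, cube P N x * (sgn (x k) * sgn (x l)) =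
      2 ^ n * (1 / 2) ^ (P.card + N.card) * (if k = l then 1 else lit P N k * lit P N l) := by
  by_cases hkl : k = l
  · subst hkl
    simp only [sgn_sq, mul_one, if_true]
    rw [sum_cube_one h]
  · have h1 := sum_cube_chi h {k, l}
    have h2 : ∀ x : Fin n → Bool, chi {k, l} x = sgn (x k) * sgn (x l) := by
      intro x
      unfold chi
      rw [Finset.prod_pair hkl]
    simp only [h2] at h1
    rw [h1, Finset.prod_pair hkl]
    simp [hkl]

lemma sum_lit_sq {P N : Finset (Fin n)} (h : Disjoint P N) :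
    ∑ i, lit P N i * lit P N i = (P.card : ℝ) + N.card := by
  have h1 : ∀ i, lit P N i * lit P N i = (if i ∈ P then (1 : ℝ) else 0) +
      (if i ∈ N then (1 : ℝ) else 0) := by
    intro i
    unfold lit
    by_cases hP : i ∈ P
    · have hN : i ∉ N := fun hn => (Finset.disjoint_left.mp h hP) hn
      simp [hP, hN]
    · by_cases hN : i ∈ N <;> simp [hP, hN]
  rw [Finset.sum_congr rfl (fun i _ => h1 i), Finset.sum_add_distrib, Finset.sum_ite_mem,
    Finset.sum_ite_mem]
  simp

lemma sum_cube_T2 {P N : Finset (Fin n)} (h : Disjoint P N) {ε : Fin n → ℝ}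
    (hε : ∀ i, ε i * ε i = 1) :
    ∑ x : Fin n → Bool, cube P N x * (∑ i, ε i * sgn (x i)) ^ 2 =
      2 ^ n * (1 / 2) ^ (P.card + N.card) *
        ((n : ℝ) + (∑ i ∈ P, ε i - ∑ i ∈ N, ε i) ^ 2 - ((P.card : ℝ) + N.card)) := by
  have hT2 : ∀ x : Fin n → Bool, (∑ i, ε i * sgn (x i)) ^ 2 =
      ∑ k, ∑ l, ε k * ε l * (sgn (x k) * sgn (x l)) := by
    intro x
    rw [sq, Finset.sum_mul]
    apply Finset.sum_congr rfl
    intro k _
    rw [Finset.mul_sum]
    apply Finset.sum_congr rfl
    intro l _
    ring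
  have hsw : ∑ x : Fin n → Bool, cube P N x * (∑ i, ε i * sgn (x i)) ^ 2 =
      ∑ k, ∑ l, ε k * ε l * ∑ x : Fin n → Bool, cube P N x * (sgn (x k) * sgn (x l)) := by
    simp only [hT2, Finset.mul_sum]
    rw [Finset.sum_comm]
    apply Finset.sum_congr rfl
    intro k _
    rw [Finset.sum_comm]
    apply Finset.sum_congr rfl
    intro l _
    apply Finset.sum_congr rfl
    intro x _
    ring
  rw [hsw]
  simp only [sum_cube_pair h]
  have hs : (∑ k, ∑ l, ε k * ε l * (if k = l then 1 else lit P N k * lit P N l)) =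
      (n : ℝ) + (∑ i ∈ P, ε i - ∑ i ∈ N, ε i) ^ 2 - ((P.card : ℝ) + N.card) := by
    have h1 : ∀ k l, ε k * ε l * (if k = l then (1 : ℝ) else lit P N k * lit P N l) =
        (ε k * lit P N k) * (ε l * lit P N l) +
          (if k = l then (1 : ℝ) - lit P N k * lit P N l else 0) := by
      intro k l
      by_cases hkl : k = l
      · subst hkl
        simp only [if_true]
        have := hε k
        linear_combination (1 - lit P N k * lit P N k) * this
      · simp [hkl]
        ring
    simp only [h1, Finset.sum_add_distrib]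
    rw [← sum_lit h ε, sq, Finset.sum_mul]
    have h2 : ∑ k, ∑ l, (if k = l then (1 : ℝ) - lit P N k * lit P N l else 0) =
        (n : ℝ) - ((P.card : ℝ) + N.card) := by
      simp only [Finset.sum_ite_eq, Finset.mem_univ, if_true, Finset.sum_sub_distrib, sum_lit_sq h]
      simp
    rw [h2]
    have h3 : ∑ k, ∑ l, (ε k * lit P N k) * (ε l * lit P N l) =
        ∑ k, (ε k * lit P N k) * ∑ l, (ε l * lit P N l) := by
      apply Finset.sum_congr rfl
      intro k _
      rw [Finset.mul_sum]
    rw [h3]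
    ring
  rw [← hs, Finset.mul_sum]
  apply Finset.sum_congr rfl
  intro k _
  rw [Finset.mul_sum]
  apply Finset.sum_congr rfl
  intro l _
  ring

/-- **Fractional partition bound.**  If a nonnegative combination of subcubes on each of which `f`
is constant sums to the constant one, then `∑ |f̂(i)|` is at most the square root of the average
codimension. -/
theorem partition_bound {ι : Type*} {f : (Fin n → Bool) → ℝ}
    (s : Finset ι) (P N : ι → Finset (Fin n)) (α : ι → ℝ) (c : ι → ℝ)
    (hα : ∀ j ∈ s, 0 ≤ α j) (hd : ∀ j ∈ s, Disjoint (P j) (N j))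
    (hrep : ∀ x, ∑ j ∈ s, α j * cube (P j) (N j) x = 1)
    (hc : ∀ j ∈ s, c j = 1 ∨ c j = -1)
    (hmono : ∀ j ∈ s, 0 < α j → ∀ x, cube (P j) (N j) x = 1 → f x = c j) :
    ∑ i, |fourier f {i}| ≤
      √(∑ j ∈ s, α j * (1 / 2) ^ ((P j).card + (N j).card) *
        ((P j).card + (N j).card : ℝ)) := by
  classical
  set ε : Fin n → ℝ := fun i => if 0 ≤ fourier f {i} then 1 else -1 with hεdef
  have hε : ∀ i, ε i * ε i = 1 := by
    intro i
    by_cases h : 0 ≤ fourier f {i}
    · simp [hεdef, h]
    · simp [hεdef, h]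
  have habs : ∀ i, |fourier f {i}| = ε i * fourier f {i} := by
    intro i
    by_cases h : 0 ≤ fourier f {i}
    · simp [hεdef, h, abs_of_nonneg h]
    · simp [hεdef, h, abs_of_neg (not_le.mp h)]
  set T : (Fin n → Bool) → ℝ := fun x => ∑ i, ε i * sgn (x i) with hT
  have h2n : (0 : ℝ) < 2 ^ n := by positivity
  have hLT : ∑ i, |fourier f {i}| = (∑ x, f x * T x) / 2 ^ n := by
    rw [Finset.sum_congr rfl (fun i _ => habs i)]
    unfold P047.fourier
    simp only [chi_singleton]
    have hthis : (∑ x, f x * T x) = ∑ i, ε i * ∑ x : Fin n → Bool, f x * sgn (x i) := by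
      simp only [hT, Finset.mul_sum]
      rw [Finset.sum_comm]
      apply Finset.sum_congr rfl
      intro i _
      apply Finset.sum_congr rfl
      intro x _
      ring
    rw [hthis, Finset.sum_div]
    apply Finset.sum_congr rfl
    intro i _
    rw [mul_div_assoc]
  set q : ι → ℝ := fun j => α j * (1 / 2) ^ ((P j).card + (N j).card) with hq
  set e : ι → ℝ := fun j => ∑ i ∈ P j, ε i - ∑ i ∈ N j, ε i with he
  have hq0 : ∀ j ∈ s, 0 ≤ q j := fun j hj => mul_nonneg (hα j hj) (by positivity)
  -- total mass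
  have hmass : ∑ j ∈ s, q j = 1 := by
    have h1 : ∑ x : Fin n → Bool, ∑ j ∈ s, α j * cube (P j) (N j) x = 2 ^ n := by
      simp [hrep]
    rw [Finset.sum_comm] at h1
    have h2 : ∑ j ∈ s, ∑ x : Fin n → Bool, α j * cube (P j) (N j) x = ∑ j ∈ s, 2 ^ n * q j := by
      apply Finset.sum_congr rfl
      intro j hj
      rw [← Finset.mul_sum, sum_cube_one (hd j hj)]
      simp only [hq]
      ring
    rw [h2, ← Finset.mul_sum] at h1
    exact mul_left_cancel₀ h2n.ne' (by rw [h1, mul_one])
  -- second moment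
  have hTsq : ∑ x, T x ^ 2 = 2 ^ n * n := by
    have := sum_cube_T2 (P := (∅ : Finset (Fin n))) (N := ∅) (Finset.disjoint_empty_left _) hε
    simpa [cube_empty] using this
  have hvar : ∑ j ∈ s, q j * e j ^ 2 = ∑ j ∈ s, q j * ((P j).card + (N j).card : ℝ) := by
    have h1 : ∑ x, T x ^ 2 = ∑ x, ∑ j ∈ s, α j * (cube (P j) (N j) x * T x ^ 2) := by
      apply Finset.sum_congr rfl
      intro x _
      have := hrep x
      calc T x ^ 2 = (∑ j ∈ s, α j * cube (P j) (N j) x) * T x ^ 2 := by rw [this, one_mul]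
        _ = _ := by
            rw [Finset.sum_mul]
            apply Finset.sum_congr rfl
            intro j _
            ring
    have h2 : ∑ x, ∑ j ∈ s, α j * (cube (P j) (N j) x * T x ^ 2) =
        ∑ j ∈ s, 2 ^ n * (q j * ((n : ℝ) + e j ^ 2 - ((P j).card + (N j).card : ℝ))) := by
      rw [Finset.sum_comm]
      apply Finset.sum_congr rfl
      intro j hj
      rw [← Finset.mul_sum]
      rw [show (∑ x, cube (P j) (N j) x * T x ^ 2) =
          ∑ x : Fin n → Bool, cube (P j) (N j) x * (∑ i, ε i * sgn (x i)) ^ 2 from rfl,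
        sum_cube_T2 (hd j hj) hε]
      simp only [hq, he]
      ring
    rw [h1, h2, ← Finset.mul_sum] at hTsq
    have h3 := mul_left_cancel₀ h2n.ne' hTsq
    have h4 : ∑ j ∈ s, q j * ((n : ℝ) + e j ^ 2 - ((P j).card + (N j).card : ℝ)) =
        (n : ℝ) * ∑ j ∈ s, q j + ∑ j ∈ s, q j * e j ^ 2 -
          ∑ j ∈ s, q j * ((P j).card + (N j).card : ℝ) := by
      rw [Finset.mul_sum, ← Finset.sum_add_distrib, ← Finset.sum_sub_distrib]
      apply Finset.sum_congr rfl
      intro j _
      ring
    rw [h4, hmass] at h3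
    linarith
  -- the correlation
  have hcorr : (∑ x, f x * T x) / 2 ^ n = ∑ j ∈ s, q j * (c j * e j) := by
    have h1 : ∑ x, f x * T x = ∑ x, ∑ j ∈ s, α j * (c j * (cube (P j) (N j) x * T x)) := by
      apply Finset.sum_congr rfl
      intro x _
      have := hrep x
      calc f x * T x = (∑ j ∈ s, α j * cube (P j) (N j) x) * (f x * T x) := by
            rw [this, one_mul]
        _ = _ := by
            rw [Finset.sum_mul]
            apply Finset.sum_congr rfl
            intro j hj
            rcases (hα j hj).eq_or_lt with h0 | h0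
            · rw [← h0]; ring
            · by_cases hcube : cube (P j) (N j) x = 1
              · rw [hcube, hmono j hj h0 x hcube]; ring
              · have : cube (P j) (N j) x = 0 := by
                  unfold cube at hcube ⊢
                  split_ifs at hcube ⊢ with h
                  · exact absurd rfl hcube
                  · rfl
                rw [this]; ring
    rw [h1, Finset.sum_comm, Finset.sum_div]
    apply Finset.sum_congr rfl
    intro j hj
    have h2 : ∑ x, α j * (c j * (cube (P j) (N j) x * T x)) =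
        α j * (c j * (2 ^ n * (1 / 2) ^ ((P j).card + (N j).card) * e j)) := by
      rw [← Finset.mul_sum, ← Finset.mul_sum]
      rw [show (∑ x, cube (P j) (N j) x * T x) =
          ∑ x : Fin n → Bool, cube (P j) (N j) x * ∑ i, ε i * sgn (x i) from rfl,
        sum_cube_T (hd j hj)]
    rw [h2]
    simp only [hq]
    field_simp
  rw [hLT, hcorr]
  apply Real.le_sqrt_of_sq_le
  have hcs : (∑ j ∈ s, q j * (c j * e j)) ^ 2 ≤ (∑ j ∈ s, q j) * ∑ j ∈ s, q j * (c j * e j) ^ 2 :=
    Finset.sum_sq_le_sum_mul_sum_of_sq_le_mul s (r := fun j => q j * (c j * e j))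
      (f := q) (g := fun j => q j * (c j * e j) ^ 2) hq0
      (fun j hj => mul_nonneg (hq0 j hj) (sq_nonneg _))
      (fun j _ => le_of_eq (by ring))
  have hsq : ∑ j ∈ s, q j * (c j * e j) ^ 2 = ∑ j ∈ s, q j * e j ^ 2 := by
    apply Finset.sum_congr rfl
    intro j hj
    have : c j ^ 2 = 1 := by
      rcases hc j hj with h | h <;> rw [h] <;> norm_num
    rw [mul_pow, this, one_mul]
  rw [hmass, one_mul, hsq, hvar] at hcs
  exact hcs

end Vale.Agent.Lib.P047C
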